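import Vale.Agent.P212H52.Rows
import Mathlib.Analysis.Normed.Operator.Extend
import Mathlib.Analysis.InnerProductSpace.Completion

/-! Evaluations of a Kasparov module over `C([0,1])` exist and are unique. -/

set_option linter.unusedSectionVars false

namespace Vale.Agent.P212H.E79

open Vale.Agent.P212 Vale.Agent.P212Z Vale.Agent.P212Z.Kas ContinuousLinearMap
open scoped ComplexOrder

noncomputable section

variable {E H K : Type} [NormedAddCommGroup E] [NormedSpace ℂ E]
  [SMul CI E] [CStarModule CI E] [NormedAddCommGroup H] [InnerProductSpace ℂ H] [CompleteSpace H]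
  [NormedAddCommGroup K] [InnerProductSpace ℂ K] [CompleteSpace K] {t : unitInterval}

/-- `π` is a fibre map -/
structure Fib (t : unitInterval) (π : E →ₗ[ℂ] H) : Prop where
  dense : DenseRange π
  inn : ∀ x y : E, inner ℂ (π x) (π y) = inner CI x y t

theorem exists_fib (t : unitInterval) : ∃ (H : Type) (_ : NormedAddCommGroup H)
    (_ : InnerProductSpace ℂ H) (_ : CompleteSpace H) (π : E →ₗ[ℂ] H), Fib t π := by
  let c : PreInnerProductSpace.Core ℂ (WithLp 2 E) :=
    { inner := fun a b => inner CI a.ofLp b.ofLp t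
      conj_inner_symm := fun a b =>
        congrArg (fun f : CI => f t) (CStarModule.star_inner (A := CI) b.ofLp a.ofLp)
      re_inner_nonneg := fun a =>
        (RCLike.nonneg_iff.mp (CStarModule.inner_self_nonneg (A := CI) (x := a.ofLp) t)).1
      add_left := fun a b d =>
        congrArg (fun f : CI => f t) (CStarModule.inner_add_left (A := CI) (x := a.ofLp)
          (y := b.ofLp) (z := d.ofLp))
      smul_left := fun a b r =>
        congrArg (fun f : CI => f t) (CStarModule.inner_smul_left_complex (A := CI) (z := r)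
          (x := a.ofLp) (y := b.ofLp)) }
  let _ : SeminormedAddCommGroup (WithLp 2 E) :=
    InnerProductSpace.Core.toSeminormedAddCommGroup (c := c)
  let _ : InnerProductSpace ℂ (WithLp 2 E) := InnerProductSpace.ofCore c
  refine ⟨UniformSpace.Completion (WithLp 2 E), inferInstance, inferInstance, inferInstance,
    (UniformSpace.Completion.toComplL (𝕜 := ℂ) (E := WithLp 2 E)).toLinearMap ∘ₗ
      (WithLp.linearEquiv 2 ℂ E).symm.toLinearMap, ?_, fun x y => ?_⟩
  · exact UniformSpace.Completion.denseRange_coe.mono (by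
      rintro _ ⟨z, rfl⟩
      exact ⟨z.ofLp, rfl⟩)
  · exact UniformSpace.Completion.inner_coe (𝕜 := ℂ) (WithLp.toLp 2 x) (WithLp.toLp 2 y)

variable {π : E →ₗ[ℂ] H} {π' : E →ₗ[ℂ] K}

theorem Fib.smul (h : Fib t π) (b : CI) (x : E) : π (b • x) = b t • π x := by
  refine h.dense.eq_of_inner_right ℂ fun y => ?_
  rw [inner_smul_right, h.inn, h.inn, CStarModule.inner_op_smul_right]
  rfl

theorem Fib.sq (h : Fib t π) (x : E) : ‖π x‖ ^ 2 = ‖inner CI x x t‖ := by
  rw [← h.inn, inner_self_eq_norm_sq_to_K]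
  simp

theorem Fib.norm_le (h : Fib t π) (x : E) : ‖π x‖ ≤ ‖x‖ := by
  rw [← sq_le_sq₀ (norm_nonneg _) (norm_nonneg _), h.sq, CStarModule.norm_sq_eq (A := CI)]
  exact ContinuousMap.norm_coe_le_norm _ _

theorem Fib.bound (h : Fib t π) {S : E → E} (hS : ∀ (b : CI) x, π (S (b • x)) = b t • π (S x))
    {C : ℝ} (hC : 0 ≤ C) (hb : ∀ z, ‖S z‖ ≤ C * ‖z‖) (x : E) : ‖π (S x)‖ ≤ C * ‖π x‖ := by
  have key : ∀ ε : ℝ, 0 < ε → ‖π (S x)‖ ≤ C * (‖π x‖ + ε) := by
    intro ε hε
    let n : unitInterval → ℝ := fun s => Real.sqrt ‖inner CI x x s‖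
    have hn : ∀ s, 0 < n s + ε := fun s => add_pos_of_nonneg_of_pos (Real.sqrt_nonneg _) hε
    have hc : Continuous n := (inner CI x x).continuous.norm.sqrt
    let b : CI := ⟨fun s => (((n s + ε)⁻¹ : ℝ) : ℂ), Complex.continuous_ofReal.comp
      ((hc.add continuous_const).inv₀ fun s => (hn s).ne')⟩
    have hbn : ∀ s, ‖b s‖ = (n s + ε)⁻¹ := fun s =>
      (Complex.norm_real _).trans (Real.norm_of_nonneg (inv_pos.2 (hn s)).le)
    have h1 : ‖b • x‖ ≤ 1 := by
      rw [← sq_le_one_iff₀ (norm_nonneg _), CStarModule.norm_sq_eq (A := CI),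
        CStarModule.inner_op_smul_right, CStarModule.inner_op_smul_left,
        ContinuousMap.norm_le _ zero_le_one]
      intro s
      have h2 : ‖inner CI x x s‖ = n s * n s := (Real.mul_self_sqrt (norm_nonneg _)).symm
      have h3 : n s * (n s + ε)⁻¹ ≤ 1 :=
        (mul_inv_le_iff₀ (hn s)).2 (by linarith)
      have h4 : 0 ≤ n s * (n s + ε)⁻¹ := mul_nonneg (Real.sqrt_nonneg _) (inv_pos.2 (hn s)).le
      rw [ContinuousMap.mul_apply, ContinuousMap.mul_apply, norm_mul, norm_mul,
        ContinuousMap.star_apply, norm_star, hbn, h2]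
      nlinarith
    have h5 : n t = ‖π x‖ := by
      change Real.sqrt _ = _
      rw [← h.sq, Real.sqrt_sq (norm_nonneg _)]
    have h6 := (h.norm_le (S (b • x))).trans ((hb _).trans (mul_le_of_le_one_right hC h1))
    rw [hS, norm_smul, hbn, inv_mul_le_iff₀ (hn t), h5] at h6
    linarith
  refine le_of_forall_pos_le_add fun ε hε => ?_
  have h1 := key (ε / (C + 1)) (by positivity)
  have h2 : C * (ε / (C + 1)) ≤ ε := by
    rw [← mul_div_assoc, div_le_iff₀ (by positivity)]
    nlinarith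
  linarith

omit [SMul CI E] [CStarModule CI E] [CompleteSpace H] [CompleteSpace K] in
theorem ext_pi (h : DenseRange π) {P Q : H →L[ℂ] K} (e : ∀ x, P (π x) = Q (π x)) : P = Q :=
  DFunLike.coe_injective (h.equalizer P.continuous Q.continuous (funext e))

omit [SMul CI E] [CStarModule CI E] in
theorem adj_pi (h : DenseRange π) (h' : DenseRange π') {P : H →L[ℂ] K} {Q : K →L[ℂ] H}
    (e : ∀ x y, inner ℂ (Q (π' x)) (π y) = inner ℂ (π' x) (P (π y))) : adjoint P = Q :=
  ext_pi h' fun x => h.eq_of_inner_left ℂ fun y => by rw [adjoint_inner_left, e]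

/-- the induced operator -/
def ind (π : E →ₗ[ℂ] H) (T : E →L[ℂ] E) : H →L[ℂ] H := (π ∘ₗ T.toLinearMap).extendOfNorm π

theorem IsAdj.symm {T S : E →L[ℂ] E} (h : IsAdj CI T S) : IsAdj CI S T := fun x y => by
  rw [← CStarModule.star_inner, ← h, CStarModule.star_inner]

theorem Fib.ind_apply (h : Fib t π) {T S : E →L[ℂ] E} (a : IsAdj CI T S) (x : E) :
    ind π T (π x) = π (T x) := by
  refine LinearMap.extendOfNorm_eq h.dense ⟨‖T‖, h.bound (S := T) (fun b z => ?_) (norm_nonneg _)
    T.le_opNorm⟩ x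
  refine h.dense.eq_of_inner_right ℂ fun y => ?_
  rw [inner_smul_right, h.inn, h.inn, ← IsAdj.symm a, ← IsAdj.symm a,
    CStarModule.inner_op_smul_right]
  rfl

theorem Fib.star_ind (h : Fib t π) {T S : E →L[ℂ] E} (a : IsAdj CI T S) :
    star (ind π T) = ind π S :=
  adj_pi h.dense h.dense fun x y => by
    rw [h.ind_apply a, h.ind_apply (IsAdj.symm a), h.inn, h.inn, IsAdj.symm a]

theorem Fib.compact (h : Fib t π) {T : E →L[ℂ] E} (hT : IsCpt CI T) {P : H →L[ℂ] H}
    (hP : ∀ x, P (π x) = π (T x)) : IsCompactOperator P := by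
  refine isClosed_setOfPred_isCompactOperator.closure_subset (Metric.mem_closure_iff.2 fun ε hε => ?_)
  obtain ⟨n, x, y, hxy⟩ := hT (ε / 2) (half_pos hε)
  let R : H →L[ℂ] H := ∑ i, InnerProductSpace.rankOne ℂ (π (x i)) (π (y i))
  have hR : ∀ z, R (π z) = π (∑ i, inner CI (y i) z • x i) := by
    intro z
    rw [map_sum, sum_apply]
    refine Finset.sum_congr rfl fun i _ => ?_
    rw [InnerProductSpace.rankOne_apply, h.smul, h.inn]
  refine ⟨R, ?_, ?_⟩
  · refine Finset.sum_induction _ (fun Q : H →L[ℂ] H => IsCompactOperator Q)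
      (fun _ _ => IsCompactOperator.add) isCompactOperator_zero fun i _ => ?_
    exact (isCompactOperator_of_locallyCompactSpace_dom (innerSL ℂ (π (y i)))).clm_comp
      (toSpanSingleton ℂ (π (x i)))
  · have h1 : ∀ z, (P - R) (π z) = π (T z - ∑ i, inner CI (y i) z • x i) := fun z => by
      rw [sub_apply, hP, hR, map_sub]
    have h2 : ∀ z, ‖(P - R) (π z)‖ ≤ ε / 2 * ‖π z‖ := by
      intro z
      rw [h1]
      refine h.bound (S := fun z => T z - ∑ i, inner CI (y i) z • x i) (fun b w => ?_)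
        (half_pos hε).le hxy z
      rw [← h1, ← h1, h.smul, map_smul]
    rw [dist_eq_norm]
    refine lt_of_le_of_lt (opNorm_le_bound _ (half_pos hε).le fun v => ?_) (half_lt_self hε)
    exact h.dense.induction_on v (isClosed_le (by fun_prop) (by fun_prop)) h2

theorem Fib.separable (h : Fib t π) (hg : CountablyGen CI E) :
    TopologicalSpace.SeparableSpace H := by
  obtain ⟨x, hx⟩ := hg
  have hc : Continuous π :=
    (π.mkContinuous 1 fun z => (h.norm_le z).trans_eq (one_mul _).symm).continuous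
  have h1 : Dense (Submodule.span ℂ (Set.range fun n => π (x n)) : Set H) := by
    refine (h.dense.dense_image hc hx).mono ?_
    rintro _ ⟨z, hz, rfl⟩
    refine (Submodule.span_le (p := (Submodule.span ℂ (Set.range fun n => π (x n))).comap π)).2
      ?_ hz
    rintro _ ⟨b, n, rfl⟩
    change π (b • x n) ∈ Submodule.span ℂ _
    rw [h.smul]
    exact Submodule.smul_mem _ _ (Submodule.subset_span ⟨n, rfl⟩)
  exact h1.isSeparable_iff.1 (Set.countable_range _).isSeparable.span

variable {A : Type} [NonUnitalCStarAlgebra A]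

theorem mul_app {X : Type} [NormedAddCommGroup X] [NormedSpace ℂ X] (P Q : X →L[ℂ] X) (x : X) :
    (P * Q) x = P (Q x) := rfl

theorem one_app {X : Type} [NormedAddCommGroup X] [NormedSpace ℂ X] (x : X) :
    (1 : X →L[ℂ] X) x = x := rfl

/-- the induced representation -/
def rho (h : Fib t π) (m : KMod CI E A) : A →⋆ₙₐ[ℂ] (H →L[ℂ] H) where
  toFun a := ind π (m.φ a)
  map_smul' c a := ext_pi h.dense fun x => by
    rw [h.ind_apply (m.φ_adj _), map_smul, smul_apply, map_smul, smul_apply,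
      h.ind_apply (m.φ_adj _)]
    rfl
  map_zero' := ext_pi h.dense fun x => by
    rw [h.ind_apply (m.φ_adj _), map_zero, zero_apply, map_zero, zero_apply]
  map_add' a b := ext_pi h.dense fun x => by
    rw [h.ind_apply (m.φ_adj _), map_add, add_apply, map_add, add_apply,
      h.ind_apply (m.φ_adj _), h.ind_apply (m.φ_adj _)]
  map_mul' a b := ext_pi h.dense fun x => by
    rw [h.ind_apply (m.φ_adj _), map_mul, mul_app, mul_app,
      h.ind_apply (m.φ_adj _), h.ind_apply (m.φ_adj _)]
  map_star' a := (h.star_ind (m.φ_adj a)).symm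

theorem Fib.eval (h : Fib t π) (m : KMod CI E A) : ∃ c : Fredholm A H, IsEval m t c π := by
  have hγ := h.ind_apply m.γ_adj
  have hF := h.ind_apply m.F_adj
  have hF' := h.ind_apply (IsAdj.symm m.F_adj)
  have hρ : ∀ a x, rho h m a (π x) = π (m.φ a x) := fun a => h.ind_apply (m.φ_adj a)
  refine ⟨⟨ind π m.γ, rho h m, ind π m.F, h.separable m.gen, h.star_ind m.γ_adj,
    ext_pi h.dense fun x => ?_, fun a => ext_pi h.dense fun x => ?_, ext_pi h.dense fun x => ?_,
    fun a => h.compact (m.sq a) fun x => ?_, fun a => h.compact (m.sa a) fun x => ?_,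
    fun a => h.compact (m.comm a) fun x => ?_⟩, h.dense, h.inn, hγ, hρ, hF⟩
  · rw [mul_app, hγ, hγ, ← mul_app, m.γ_sq]
    rfl
  · rw [mul_app, mul_app, hρ, hγ, hγ, hρ, ← mul_app, m.even, mul_app]
  · rw [neg_apply, mul_app, mul_app, hF, hγ, hγ, hF, ← mul_app, m.odd, neg_apply, map_neg,
      mul_app]
  · simp only [mul_app, sub_apply, one_app, hρ, hF, map_sub]
  · simp only [mul_app, sub_apply, h.star_ind m.F_adj, hρ, hF, hF', map_sub]
  · simp only [mul_app, sub_apply, hρ, hF, map_sub]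

theorem Fib.ext_apply (h : Fib t π) (h' : Fib t π') (x : E) : π'.extendOfNorm π (π x) = π' x := by
  refine LinearMap.extendOfNorm_eq h.dense ⟨1, fun z => ?_⟩ x
  rw [one_mul, ← sq_le_sq₀ (norm_nonneg _) (norm_nonneg _), h.sq, h'.sq]

theorem unique {m : KMod CI E A} {a : Fredholm A H} {b : Fredholm A K} (ha : IsEval m t a π)
    (hb : IsEval m t b π') : UnitEq a b := by
  have h : Fib t π := ⟨ha.dense, ha.inn⟩
  have h' : Fib t π' := ⟨hb.dense, hb.inn⟩
  have hu := h.ext_apply h'
  have hv := h'.ext_apply h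
  have e : adj (π'.extendOfNorm π) = π.extendOfNorm π' :=
    adj_pi h.dense h'.dense fun x y => by rw [hu, hv, h.inn, h'.inn]
  refine ⟨π'.extendOfNorm π, ⟨ext_pi h.dense fun x => ?_, ext_pi h.dense fun x => ?_,
    fun f => ext_pi h.dense fun x => ?_, ext_pi h.dense fun x => ?_⟩,
    ext_pi h'.dense fun x => ?_⟩
  · rw [e, comp_apply, hu, hv, one_app]
  · rw [comp_apply, comp_apply, hu, ha.γ, hb.γ, hu]
  · rw [comp_apply, comp_apply, hu, ha.ρ, hb.ρ, hu]
  · rw [comp_apply, comp_apply, hu, ha.F, hb.F, hu]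
  · rw [e, comp_apply, hv, hu, one_app]

end

end Vale.Agent.P212H.E79

namespace Vale.Agent.P212H

theorem eval79 : EVAL := by
  intro A _ E _ _ _ _ m t
  refine ⟨?_, fun H K _ _ _ _ _ _ a b π π' ha hb => E79.unique ha hb⟩
  obtain ⟨H, i1, i2, i3, π, h⟩ := E79.exists_fib (E := E) t
  obtain ⟨c, hc⟩ := h.eval m
  exact ⟨H, i1, i2, i3, c, π, hc⟩

end Vale.Agent.P212H
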